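import Mathlib
import Vale.Agent.Lib.P205.Tor.All
import Vale.Agent.Lib.P205.KleinInv.Warped

open scoped ContDiff

namespace Vale.Agent.Results.P205.AAA_union

/-- First part: every smooth Riemannian metric on the two-torus `ℝ² / ℤ²` has a smooth isometric
immersion into `ℝ⁴`. The metric is `E dx² + 2 G dx dy + H dy²` with smooth `ℤ²`-periodic coefficients,
`E > 0` and `E H - G² > 0`, with no other assumption.

Second part: on the Klein bottle, the quotient of the plane by the glide reflection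
`(x, y) ↦ (-x, y + a)` and the translation `(x, y) ↦ (x + b, y)`, for arbitrary `a, b > 0`, every smooth
Riemannian metric invariant under the circle action `y ↦ y + s` has a smooth isometric immersion into
`ℝ⁴`. The metric is `H dx² + 2 G dx dy + E dy²` with coefficients depending on `x` only, `b`-periodic,
`E` and `H` even and `G` odd (invariance under the glide reflection), `E > 0`, `E H - G² > 0`. A map on
the plane invariant under the two generators descends to the quotient, and its differential preserves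
the inner products. The case `E = H = 1`, `G = 0` gives every flat Klein bottle. -/
theorem result :
    (∀ (E G H : ℝ × ℝ → ℝ), ContDiff ℝ ∞ E → ContDiff ℝ ∞ G → ContDiff ℝ ∞ H →
      (∀ s t, E (s + 1, t) = E (s, t)) → (∀ s t, E (s, t + 1) = E (s, t)) →
      (∀ s t, G (s + 1, t) = G (s, t)) → (∀ s t, G (s, t + 1) = G (s, t)) →
      (∀ s t, H (s + 1, t) = H (s, t)) → (∀ s t, H (s, t + 1) = H (s, t)) →
      (∀ p, 0 < E p) → (∀ p, 0 < E p * H p - G p ^ 2) →
      ∃ F : ℝ × ℝ → EuclideanSpace ℝ (Fin 4), ContDiff ℝ ∞ F ∧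
        (∀ x y, F (x + 1, y) = F (x, y)) ∧ (∀ x y, F (x, y + 1) = F (x, y)) ∧
        ∀ q v w : ℝ × ℝ, inner ℝ (fderiv ℝ F q v) (fderiv ℝ F q w) =
          E q * v.1 * w.1 + G q * (v.1 * w.2 + v.2 * w.1) + H q * v.2 * w.2) ∧
    (∀ (a b : ℝ) (E G H : ℝ → ℝ), 0 < a → 0 < b →
      ContDiff ℝ ∞ E → ContDiff ℝ ∞ G → ContDiff ℝ ∞ H →
      (∀ x, E (x + b) = E x) → (∀ x, G (x + b) = G x) → (∀ x, H (x + b) = H x) →
      (∀ x, E (-x) = E x) → (∀ x, G (-x) = - G x) → (∀ x, H (-x) = H x) →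
      (∀ x, 0 < E x) → (∀ x, 0 < E x * H x - G x ^ 2) →
      ∃ F : ℝ × ℝ → EuclideanSpace ℝ (Fin 4), ContDiff ℝ ∞ F ∧
        (∀ x y, F (-x, y + a) = F (x, y)) ∧ (∀ x y, F (x + b, y) = F (x, y)) ∧
        ∀ q v w : ℝ × ℝ, inner ℝ (fderiv ℝ F q v) (fderiv ℝ F q w) =
          H q.1 * v.1 * w.1 + G q.1 * (v.1 * w.2 + v.2 * w.1) + E q.1 * v.2 * w.2) :=
  ⟨fun E G H hE hG hH E1 E2 G1 G2 H1 H2 hpos hdet =>
      Vale.Agent.Lib.P205.Tor.all_metrics E G H hE hG hH E1 E2 G1 G2 H1 H2 hpos hdet,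
    fun _ _ _ _ _ ha hb hE hG hH pE pG pH eE oG eH hEpos hdet =>
      Vale.Agent.Lib.P205.KleinInv.invariant_klein_immersion ha hb hE hG hH pE pG pH eE oG eH hEpos hdet⟩

end Vale.Agent.Results.P205.AAA_union
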